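import Vale.Agent.P042.H384.Ex

/-!
# Orders one and two from the majorant (helper532)

The first two orders of the cumulants are bounded by the majorant of `F` and the identity of
Euler alone.
-/

set_option linter.unusedSectionVars false

namespace Vale.Agent.P042.H532

open Finset Vale.Agent.P042.H384

variable {J : Type*} [Fintype J] [DecidableEq J]

/-- the multi-index of one scale -/
noncomputable def e1 (i : J) : J →₀ ℕ := Finsupp.single i 1

omit [Fintype J] in
lemma e1_degree (i : J) : (e1 i).degree = 1 := by simp [e1]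

omit [Fintype J] [DecidableEq J] in
lemma degree_one {a : J →₀ ℕ} (h : a.degree = 1) : ∃ i, a = e1 i := by
  classical
  have h0 : a ≠ 0 := by
    rintro rfl
    simp at h
  obtain ⟨i, hi⟩ := Finsupp.ne_iff.mp h0
  refine ⟨i, ?_⟩
  have h1 : e1 i ≤ a := by
    unfold e1
    rw [Finsupp.single_le_iff]
    have : a i ≠ 0 := by simpa using hi
    omega
  obtain ⟨b, rfl⟩ := exists_add_of_le h1
  have h2 : b.degree = 0 := by
    rw [map_add, e1_degree] at h
    omega
  rw [Finsupp.degree_eq_zero_iff] at h2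
  rw [h2, add_zero]

omit [Fintype J] [DecidableEq J] in
lemma degree_two {a : J →₀ ℕ} (h : a.degree = 2) : ∃ i j, a = e1 i + e1 j := by
  classical
  have h0 : a ≠ 0 := by
    rintro rfl
    simp at h
  obtain ⟨i, hi⟩ := Finsupp.ne_iff.mp h0
  have h1 : e1 i ≤ a := by
    unfold e1
    rw [Finsupp.single_le_iff]
    have : a i ≠ 0 := by simpa using hi
    omega
  obtain ⟨b, rfl⟩ := exists_add_of_le h1
  have h2 : b.degree = 1 := by
    rw [map_add, e1_degree] at h
    omega
  obtain ⟨j, rfl⟩ := degree_one h2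
  exact ⟨i, j, rfl⟩

lemma mo_e1 (r : J → ℝ) (i : J) : mo r (e1 i) = r i := by
  unfold mo e1
  rw [Finset.prod_eq_single i]
  · simp
  · intro j _ hj
    rw [Finsupp.single_eq_of_ne (by simpa using hj), pow_zero]
  · intro h
    exact absurd (mem_univ i) h

/-- orders one and two -/
noncomputable def T12 (J : Type*) [Fintype J] [DecidableEq J] : Finset (J →₀ ℕ) :=
  (univ.image fun i : J => e1 i) ∪ (univ.image fun p : J × J => e1 p.1 + e1 p.2)

lemma mem_T12 {a : J →₀ ℕ} : a ∈ T12 J ↔ a ≠ 0 ∧ a.degree ≤ 2 := by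
  unfold T12
  simp only [mem_union, mem_image, mem_univ, true_and, Prod.exists]
  constructor
  · rintro (⟨i, rfl⟩ | ⟨i, j, rfl⟩)
    · refine ⟨?_, by rw [e1_degree]; omega⟩
      intro h
      have := e1_degree i
      rw [h] at this
      simp at this
    · refine ⟨?_, by rw [map_add, e1_degree, e1_degree]⟩
      intro h
      have h1 : (e1 i + e1 j : J →₀ ℕ).degree = 2 := by rw [map_add, e1_degree, e1_degree]
      rw [h] at h1
      simp at h1
  · rintro ⟨h0, h2⟩
    have h1 : a.degree ≠ 0 := by rwa [Ne, Finsupp.degree_eq_zero_iff]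
    have h3 : a.degree = 1 ∨ a.degree = 2 := by omega
    rcases h3 with h3 | h3
    · obtain ⟨i, rfl⟩ := degree_one h3
      exact Or.inl ⟨i, rfl⟩
    · obtain ⟨i, j, rfl⟩ := degree_two h3
      exact Or.inr ⟨i, j, rfl⟩

lemma sum_T12_le {f : (J →₀ ℕ) → ℝ} (hf : ∀ a, 0 ≤ f a) :
    ∑ a ∈ T12 J, f a ≤ ∑ i, f (e1 i) + ∑ i, ∑ j, f (e1 i + e1 j) := by
  unfold T12
  have h1 : ∑ a ∈ (univ.image fun i : J => e1 i) ∪ (univ.image fun p : J × J => e1 p.1 + e1 p.2),
      f a ≤ ∑ a ∈ univ.image (fun i : J => e1 i), f a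
        + ∑ a ∈ univ.image (fun p : J × J => e1 p.1 + e1 p.2), f a := by
    rw [← Finset.sum_union_inter]
    exact le_add_of_nonneg_right (Finset.sum_nonneg fun a _ => hf a)
  refine h1.trans (add_le_add ?_ ?_)
  · exact Finset.sum_image_le_of_nonneg (fun i _ => hf _)
  · refine (Finset.sum_image_le_of_nonneg (fun i _ => hf _)).trans (le_of_eq ?_)
    rw [← Finset.univ_product_univ, Finset.sum_product]

omit [Fintype J] in
/-- the part of the identity of Euler at order one -/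
lemma W_one {F W : (J →₀ ℕ) → ℝ} (hF0 : F 0 = 1)
    (hE : ∀ a : J →₀ ℕ, a.degree ≤ 2 → (a.degree : ℝ) * F a
      = ∑ x ∈ HasAntidiagonal.antidiagonal a, (x.1.degree : ℝ) * W x.1 * F x.2) (i : J) :
    W (e1 i) = F (e1 i) := by
  have h := hE (e1 i) (by rw [e1_degree]; omega)
  rw [e1_degree, Finset.sum_eq_single (e1 i, 0)] at h
  · simp only [e1_degree, hF0] at h
    push_cast at h
    linarith
  · rintro ⟨x, y⟩ hx hne
    rw [Finset.HasAntidiagonal.mem_antidiagonal] at hx
    simp only at hx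
    have hd : x.degree + y.degree = 1 := by rw [← map_add, hx, e1_degree]
    have hx0 : x.degree = 0 := by
      by_contra hc
      have hy : y.degree = 0 := by omega
      rw [Finsupp.degree_eq_zero_iff] at hy
      rw [hy, add_zero] at hx
      exact hne (by rw [hx, hy])
    simp [hx0]
  · intro hn
    exfalso
    apply hn
    rw [Finset.HasAntidiagonal.mem_antidiagonal]
    simp

omit [Fintype J] in
/-- order two -/
lemma W_two {F W : (J →₀ ℕ) → ℝ} (hF0 : F 0 = 1)
    (hE : ∀ a : J →₀ ℕ, a.degree ≤ 2 → (a.degree : ℝ) * F a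
      = ∑ x ∈ HasAntidiagonal.antidiagonal a, (x.1.degree : ℝ) * W x.1 * F x.2) (i j : J) :
    |W (e1 i + e1 j)| ≤ |F (e1 i + e1 j)| + |F (e1 i)| * |F (e1 j)| := by
  set a := e1 i + e1 j with ha
  have hda : a.degree = 2 := by rw [ha, map_add, e1_degree, e1_degree]
  have h := hE a (by omega)
  have hmem : (a, (0 : J →₀ ℕ)) ∈ HasAntidiagonal.antidiagonal a := by
    rw [Finset.HasAntidiagonal.mem_antidiagonal]; simp
  rw [← Finset.add_sum_erase _ _ hmem, hda] at h
  simp only [hF0] at h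
  have h1 : |∑ x ∈ (HasAntidiagonal.antidiagonal a).erase (a, 0),
      (x.1.degree : ℝ) * W x.1 * F x.2| ≤ 2 * (|F (e1 i)| * |F (e1 j)|) := by
    have h2 : ∑ x ∈ (HasAntidiagonal.antidiagonal a).erase (a, 0),
        (x.1.degree : ℝ) * W x.1 * F x.2
        = ∑ x ∈ ((HasAntidiagonal.antidiagonal a).erase (a, 0)).filter
            (fun x => x = (e1 i, e1 j) ∨ x = (e1 j, e1 i)),
          (x.1.degree : ℝ) * W x.1 * F x.2 := by
      rw [Finset.sum_filter]
      refine Finset.sum_congr rfl ?_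
      rintro ⟨x, y⟩ hx
      split_ifs with hxy
      · rfl
      · rw [Finset.mem_erase, Finset.HasAntidiagonal.mem_antidiagonal] at hx
        obtain ⟨hne, hxa⟩ := hx
        simp only at hxa
        have hd : x.degree + y.degree = 2 := by rw [← map_add, hxa, hda]
        have hx0 : x.degree = 0 := by
          by_contra hc
          have hy0 : y.degree ≠ 0 := by
            intro hy
            rw [Finsupp.degree_eq_zero_iff] at hy
            rw [hy, add_zero] at hxa
            exact hne (by rw [hxa, hy])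
          have hx1 : x.degree = 1 := by omega
          have hy1 : y.degree = 1 := by omega
          obtain ⟨k, rfl⟩ := degree_one hx1
          obtain ⟨l, rfl⟩ := degree_one hy1
          apply hxy
          -- e1 k + e1 l = e1 i + e1 j
          by_cases hki : k = i
          · subst hki
            left
            rw [ha] at hxa
            rw [add_left_cancel hxa]
          · right
            have hk : k = j := by
              by_contra hkj
              have h3 := DFunLike.congr_fun hxa k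
              rw [ha] at h3
              simp only [e1, Finsupp.add_apply, Finsupp.single_eq_same] at h3
              rw [Finsupp.single_eq_of_ne hki, Finsupp.single_eq_of_ne hkj] at h3
              omega
            subst hk
            rw [ha, add_comm (e1 i) (e1 k)] at hxa
            rw [add_left_cancel hxa]
        simp [hx0]
    rw [h2]
    refine (Finset.abs_sum_le_sum_abs _ _).trans ?_
    have h3 : ∀ x ∈ ((HasAntidiagonal.antidiagonal a).erase (a, 0)).filter
        (fun x => x = (e1 i, e1 j) ∨ x = (e1 j, e1 i)),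
        |(x.1.degree : ℝ) * W x.1 * F x.2| ≤ |F (e1 i)| * |F (e1 j)| := by
      intro x hx
      rcases (Finset.mem_filter.mp hx).2 with rfl | rfl
      · simp only [e1_degree]
        rw [W_one hF0 hE, abs_mul, abs_mul]
        simp
      · simp only [e1_degree]
        rw [W_one hF0 hE, abs_mul, abs_mul]
        simp [mul_comm]
    refine (Finset.sum_le_card_nsmul _ _ _ h3).trans ?_
    rw [nsmul_eq_mul]
    refine mul_le_mul_of_nonneg_right ?_ (by positivity)
    have h4 : ((HasAntidiagonal.antidiagonal a).erase (a, 0)).filter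
        (fun x => x = (e1 i, e1 j) ∨ x = (e1 j, e1 i)) ⊆ {(e1 i, e1 j), (e1 j, e1 i)} := by
      intro x hx
      rcases (Finset.mem_filter.mp hx).2 with rfl | rfl <;> simp
    have h5 := (Finset.card_le_card h4).trans Finset.card_le_two
    exact_mod_cast h5
  have h2 := abs_le.mp h1
  have h3 := abs_le.mp (le_refl |F a|)
  push_cast at h
  rw [abs_le]
  constructor <;> nlinarith [h2.1, h2.2, h3.1, h3.2]

/-- the bounds of the orders one and two from the majorant -/
lemma F_e1_le {F : (J →₀ ℕ) → ℝ} {B : J → ℝ} {C1 : ℝ} (hB : ∀ j, 1 ≤ B j)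
    (hF1 : ∀ r : J → ℝ, (∀ j, 0 ≤ r j) → (∀ j, r j ≤ 1) → ∀ a : J →₀ ℕ, a.degree ≤ 2 →
      |F a| * mo r a ≤ Real.exp (C1 + ∑ j, B j * r j ^ 2)) (i : J) :
    |F (e1 i)| ≤ Real.exp (C1 + 1) * √(B i) := by
  have hBi : 0 < √(B i) := Real.sqrt_pos.mpr (by linarith [hB i])
  have hB1 : 1 ≤ √(B i) := Real.one_le_sqrt.mpr (hB i)
  have h := hF1 (fun j => if j = i then (√(B i))⁻¹ else 0) (fun j => by split_ifs <;> positivity)
    (fun j => by
      split_ifs
      · exact inv_le_one_of_one_le₀ hB1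
      · norm_num) (e1 i) (by rw [e1_degree]; omega)
  rw [mo_e1] at h
  simp only [if_true] at h
  have h1 : ∑ j, B j * (if j = i then (√(B i))⁻¹ else 0) ^ 2 = 1 := by
    rw [Finset.sum_eq_single i]
    · rw [if_pos rfl, inv_pow, Real.sq_sqrt (by linarith [hB i])]
      exact mul_inv_cancel₀ (by linarith [hB i])
    · intro j _ hj
      rw [if_neg hj]
      simp
    · intro hn
      exact absurd (mem_univ i) hn
  rw [h1] at h
  rwa [← div_eq_mul_inv, div_le_iff₀ hBi] at h

lemma F_e2_le {F : (J →₀ ℕ) → ℝ} {B : J → ℝ} {C1 : ℝ} (hB : ∀ j, 1 ≤ B j)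
    (hF1 : ∀ r : J → ℝ, (∀ j, 0 ≤ r j) → (∀ j, r j ≤ 1) → ∀ a : J →₀ ℕ, a.degree ≤ 2 →
      |F a| * mo r a ≤ Real.exp (C1 + ∑ j, B j * r j ^ 2)) (i k : J) :
    |F (e1 i + e1 k)| ≤ Real.exp (C1 + 2) * (√(B i) * √(B k)) := by
  have hBp : ∀ i, 0 < √(B i) := fun i => Real.sqrt_pos.mpr (by linarith [hB i])
  have hB1 : ∀ i, 1 ≤ √(B i) := fun i => Real.one_le_sqrt.mpr (hB i)
  have h := hF1 (fun j => if j = i ∨ j = k then (√(B j))⁻¹ else 0)
    (fun j => by
      split_ifs
      · exact (inv_pos.mpr (hBp j)).le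
      · exact le_rfl)
    (fun j => by
      split_ifs
      · exact inv_le_one_of_one_le₀ (hB1 j)
      · norm_num) (e1 i + e1 k) (by rw [map_add, e1_degree, e1_degree])
  rw [mo_add, mo_e1, mo_e1] at h
  simp only [true_or, or_true, if_true] at h
  have h1 : ∑ j, B j * (if j = i ∨ j = k then (√(B j))⁻¹ else 0) ^ 2 ≤ 2 := by
    have h2 : ∀ j, B j * (if j = i ∨ j = k then (√(B j))⁻¹ else 0) ^ 2
        = if j = i ∨ j = k then (1 : ℝ) else 0 := by
      intro j
      split_ifs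
      · rw [inv_pow, Real.sq_sqrt (by linarith [hB j])]
        exact mul_inv_cancel₀ (by linarith [hB j])
      · simp
    rw [Finset.sum_congr rfl fun j _ => h2 j, ← Finset.sum_filter, Finset.sum_const, nsmul_eq_mul,
      mul_one]
    have h3 : univ.filter (fun j => j = i ∨ j = k) ⊆ {i, k} := by
      intro j hj
      rcases (Finset.mem_filter.mp hj).2 with rfl | rfl <;> simp
    exact_mod_cast (Finset.card_le_card h3).trans Finset.card_le_two
  have h4 : |F (e1 i + e1 k)| * ((√(B i))⁻¹ * (√(B k))⁻¹) ≤ Real.exp (C1 + 2) :=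
    h.trans (Real.exp_le_exp.mpr (by linarith))
  rw [← mul_inv, ← div_eq_mul_inv, div_le_iff₀ (mul_pos (hBp i) (hBp k))] at h4
  exact h4

variable {F W : (J →₀ ℕ) → ℝ} {B B' : J → ℝ} {C1 : ℝ}

lemma W_two_le (hC1 : 0 ≤ C1) (hB : ∀ j, 1 ≤ B j) (hF0 : F 0 = 1)
    (hE : ∀ a : J →₀ ℕ, a.degree ≤ 2 → (a.degree : ℝ) * F a
      = ∑ x ∈ HasAntidiagonal.antidiagonal a, (x.1.degree : ℝ) * W x.1 * F x.2)
    (hF1 : ∀ r : J → ℝ, (∀ j, 0 ≤ r j) → (∀ j, r j ≤ 1) → ∀ a : J →₀ ℕ, a.degree ≤ 2 →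
      |F a| * mo r a ≤ Real.exp (C1 + ∑ j, B j * r j ^ 2)) (i k : J) :
    |W (e1 i + e1 k)| ≤ 2 * Real.exp (2 * C1 + 2) * (√(B i) * √(B k)) := by
  have h1 := W_two hF0 hE i k
  have h2 := F_e2_le hB hF1 i k
  have h3 := F_e1_le hB hF1 i
  have h4 := F_e1_le hB hF1 k
  have h5 : |F (e1 i)| * |F (e1 k)| ≤ Real.exp (C1 + 1) * √(B i) * (Real.exp (C1 + 1) * √(B k)) :=
    mul_le_mul h3 h4 (abs_nonneg _) (by positivity)
  have h6 : Real.exp (C1 + 1) * √(B i) * (Real.exp (C1 + 1) * √(B k))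
      = Real.exp (2 * C1 + 2) * (√(B i) * √(B k)) := by
    have : Real.exp (2 * C1 + 2) = Real.exp (C1 + 1) * Real.exp (C1 + 1) := by
      rw [← Real.exp_add]; ring_nf
    rw [this]; ring
  have h7 : Real.exp (C1 + 2) ≤ Real.exp (2 * C1 + 2) := Real.exp_le_exp.mpr (by linarith)
  have h8 := mul_le_mul_of_nonneg_right h7 (show 0 ≤ √(B i) * √(B k) by positivity)
  rw [h6] at h5
  linarith

/-- **orders one and two** in the form consumed by the interpolation theorem -/
theorem T_of_F1 (hC1 : 0 ≤ C1) (hB : ∀ j, 1 ≤ B j) (hB' : ∀ j, 0 < B' j)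
    (hs : 2 * Real.exp (2 * C1 + 2) * ∑ j, B j / B' j ≤ 1) (hF0 : F 0 = 1)
    (hE : ∀ a : J →₀ ℕ, a.degree ≤ 2 → (a.degree : ℝ) * F a
      = ∑ x ∈ HasAntidiagonal.antidiagonal a, (x.1.degree : ℝ) * W x.1 * F x.2)
    (hF1 : ∀ r : J → ℝ, (∀ j, 0 ≤ r j) → (∀ j, r j ≤ 1) → ∀ a : J →₀ ℕ, a.degree ≤ 2 →
      |F a| * mo r a ≤ Real.exp (C1 + ∑ j, B j * r j ^ 2)) {r : J → ℝ} (hr : ∀ j, 0 ≤ r j) :
    ∑ m ∈ T12 J, |W m| * mo r m ≤ ∑ j, B' j * (r j + r j ^ 2) := by
  refine (sum_T12_le fun a => mul_nonneg (abs_nonneg _) (mo_nonneg hr a)).trans ?_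
  have hE2 : 0 < 2 * Real.exp (2 * C1 + 2) := by positivity
  have h1 : ∀ i, |W (e1 i)| * mo r (e1 i) ≤ B' i * r i := by
    intro i
    rw [W_one hF0 hE, mo_e1]
    refine mul_le_mul_of_nonneg_right ?_ (hr i)
    refine (F_e1_le hB hF1 i).trans ?_
    have h2 : B i / B' i ≤ ∑ j, B j / B' j :=
      Finset.single_le_sum (f := fun j => B j / B' j)
        (fun j _ => div_nonneg (by linarith [hB j]) (hB' j).le) (mem_univ i)
    have h3 : 2 * Real.exp (2 * C1 + 2) * (B i / B' i) ≤ 1 :=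
      (mul_le_mul_of_nonneg_left h2 hE2.le).trans hs
    rw [← mul_div_assoc, div_le_one (hB' i)] at h3
    have h4 : Real.exp (C1 + 1) ≤ 2 * Real.exp (2 * C1 + 2) := by
      have := Real.exp_le_exp.mpr (show C1 + 1 ≤ 2 * C1 + 2 by linarith)
      linarith [Real.exp_pos (2 * C1 + 2)]
    have h5 : √(B i) ≤ B i := by
      rw [Real.sqrt_le_left (by linarith [hB i])]
      nlinarith [hB i]
    calc Real.exp (C1 + 1) * √(B i) ≤ 2 * Real.exp (2 * C1 + 2) * B i :=
          mul_le_mul h4 h5 (Real.sqrt_nonneg _) hE2.le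
      _ ≤ B' i := h3
  have h2 : ∀ i k, |W (e1 i + e1 k)| * mo r (e1 i + e1 k)
      ≤ 2 * Real.exp (2 * C1 + 2) * ((√(B i) * r i) * (√(B k) * r k)) := by
    intro i k
    rw [mo_add, mo_e1, mo_e1]
    have h3 := mul_le_mul_of_nonneg_right (W_two_le hC1 hB hF0 hE hF1 i k)
      (mul_nonneg (hr i) (hr k))
    calc _ ≤ _ := h3
      _ = _ := by ring
  have h3 : ∑ i, ∑ k, |W (e1 i + e1 k)| * mo r (e1 i + e1 k) ≤ ∑ j, B' j * r j ^ 2 := by
    refine (Finset.sum_le_sum fun i _ => Finset.sum_le_sum fun k _ => h2 i k).trans ?_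
    have h4 : ∑ i, ∑ k, 2 * Real.exp (2 * C1 + 2) * ((√(B i) * r i) * (√(B k) * r k))
        = 2 * Real.exp (2 * C1 + 2) * (∑ i, √(B i) * r i) ^ 2 := by
      rw [sq, Finset.sum_mul_sum, Finset.mul_sum]
      refine Finset.sum_congr rfl fun i _ => ?_
      rw [Finset.mul_sum]
    rw [h4]
    have h5 : (∑ i, √(B i) * r i) ^ 2 ≤ (∑ i, B i / B' i) * ∑ i, B' i * r i ^ 2 := by
      have h6 := Finset.sum_mul_sq_le_sq_mul_sq univ (fun i => √(B i) / √(B' i))
        (fun i => √(B' i) * r i)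
      have h7 : ∀ i, √(B i) / √(B' i) * (√(B' i) * r i) = √(B i) * r i := by
        intro i
        have : √(B' i) ≠ 0 := (Real.sqrt_pos.mpr (hB' i)).ne'
        field_simp
      have h8 : ∀ i, (√(B i) / √(B' i)) ^ 2 = B i / B' i := by
        intro i
        rw [div_pow, Real.sq_sqrt (by linarith [hB i]), Real.sq_sqrt (hB' i).le]
      have h9 : ∀ i, (√(B' i) * r i) ^ 2 = B' i * r i ^ 2 := by
        intro i
        rw [mul_pow, Real.sq_sqrt (hB' i).le]
      rw [Finset.sum_congr rfl fun i _ => h7 i, Finset.sum_congr rfl fun i _ => h8 i,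
        Finset.sum_congr rfl fun i _ => h9 i] at h6
      exact h6
    have h10 : 0 ≤ ∑ i, B' i * r i ^ 2 :=
      Finset.sum_nonneg fun i _ => mul_nonneg (hB' i).le (sq_nonneg _)
    calc 2 * Real.exp (2 * C1 + 2) * (∑ i, √(B i) * r i) ^ 2
        ≤ 2 * Real.exp (2 * C1 + 2) * ((∑ i, B i / B' i) * ∑ i, B' i * r i ^ 2) :=
          mul_le_mul_of_nonneg_left h5 hE2.le
      _ = (2 * Real.exp (2 * C1 + 2) * ∑ i, B i / B' i) * ∑ i, B' i * r i ^ 2 := by ring
      _ ≤ 1 * ∑ i, B' i * r i ^ 2 := mul_le_mul_of_nonneg_right hs h10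
      _ = _ := one_mul _
  calc _ ≤ ∑ i, B' i * r i + ∑ j, B' j * r j ^ 2 :=
        add_le_add (Finset.sum_le_sum fun i _ => h1 i) h3
    _ = _ := by
        rw [← Finset.sum_add_distrib]
        exact Finset.sum_congr rfl fun j _ => by ring

/-- the size of the orders one and two -/
theorem sum_T12_W (hC1 : 0 ≤ C1) (hB : ∀ j, 1 ≤ B j) (hF0 : F 0 = 1)
    (hE : ∀ a : J →₀ ℕ, a.degree ≤ 2 → (a.degree : ℝ) * F a
      = ∑ x ∈ HasAntidiagonal.antidiagonal a, (x.1.degree : ℝ) * W x.1 * F x.2)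
    (hF1 : ∀ r : J → ℝ, (∀ j, 0 ≤ r j) → (∀ j, r j ≤ 1) → ∀ a : J →₀ ℕ, a.degree ≤ 2 →
      |F a| * mo r a ≤ Real.exp (C1 + ∑ j, B j * r j ^ 2)) :
    ∑ m ∈ T12 J, |W m| ≤ Real.exp (C1 + 1) * ∑ j, √(B j)
      + 2 * Real.exp (2 * C1 + 2) * (∑ j, √(B j)) ^ 2 := by
  refine (sum_T12_le fun a => abs_nonneg _).trans (add_le_add ?_ ?_)
  · rw [Finset.mul_sum]
    refine Finset.sum_le_sum fun i _ => ?_
    rw [W_one hF0 hE]
    exact F_e1_le hB hF1 i
  · rw [sq, Finset.sum_mul_sum, Finset.mul_sum]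
    refine Finset.sum_le_sum fun i _ => ?_
    rw [Finset.mul_sum]
    exact Finset.sum_le_sum fun k _ => W_two_le hC1 hB hF0 hE hF1 i k

end Vale.Agent.P042.H532
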